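import Mathlib

/-!
P269: complex valued differential forms (definitions only).
-/

noncomputable section

namespace Vale.Agent.P269F

open ExteriorAlgebra MeasureTheory
open scoped ContDiff

/-- Complex valued exterior forms (of all degrees) on the real vector space `E`. -/
abbrev Λ (E : Type) [NormedAddCommGroup E] [NormedSpace ℝ E] : Type :=
  ExteriorAlgebra ℂ (E →L[ℝ] ℂ)

section
variable {E F : Type} [NormedAddCommGroup E] [NormedSpace ℝ E] [NormedAddCommGroup F]
  [NormedSpace ℝ F]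

/-- The differential form `u` is smooth at `z`. -/
def Sm (u : E → Λ E) (z : E) : Prop :=
  ∀ l : Λ E →ₗ[ℂ] ℂ, ContDiffAt ℝ ∞ (fun y => l (u y)) z

/-- The exterior derivative: `d (∑ u_I e_I) = ∑ du_I ∧ e_I` for a basis `e_I` of `Λ E`. -/
def d (u : E → Λ E) (z : E) : Λ E :=
  ∑ᶠ I, ι ℂ (fderiv ℝ (fun y => (Module.Free.chooseBasis ℂ (Λ E)).repr (u y) I) z) *
    Module.Free.chooseBasis ℂ (Λ E) I

/-- The pull back by the differential of `f` at `z`. -/
def pb (f : E → F) (z : E) : Λ F →ₐ[ℂ] Λ E :=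
  ExteriorAlgebra.map ⟨⟨fun a => a.comp (fderiv ℝ f z), fun _ _ => rfl⟩, fun _ _ => rfl⟩

end

variable {m : ℕ}

/-- The value of the top degree part on the basis `e_0, i e_0, e_1, i e_1, ...` of `ℂ^m`, i.e. the
density with respect to Lebesgue measure. -/
def top (m : ℕ) : Λ (Fin m → ℂ) →ₗ[ℂ] ℂ :=
  liftAlternating (Pi.single (m * 2) (Matrix.detRowAlternating.compLinearMap
    ⟨⟨fun a k => a (Pi.single k.divNat (if k.modNat = 0 then 1 else Complex.I)),
      fun _ _ => rfl⟩, fun _ _ => rfl⟩))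

/-- `u` has type `(p, q)`. -/
def Ty (p q : ℕ) (u : Λ (Fin m → ℂ)) : Prop :=
  ∀ c : ℂ, pb (fun v => c • v) 0 u = (c ^ p * star c ^ q) • u

/-- The Chern form `-(i/2π) ∂∂̄ log h = (1/4π) d (d log h ∘ J)` of a hermitian line bundle in which
a holomorphic frame has squared length `h`. -/
def c1 (h : (Fin m → ℂ) → ℝ) (z : Fin m → ℂ) : Λ (Fin m → ℂ) :=
  (4 * Real.pi : ℂ)⁻¹ • d (fun y => pb (fun v => Complex.I • v) 0
    (ι ℂ (fderiv ℝ (fun w => (Real.log (h w) : ℂ)) y))) z

variable (m) (X : Type) [TopologicalSpace X]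

/-- Families of local differential forms indexed by the charts of `X`. -/
abbrev Fm : Type := OpenPartialHomeomorph X (Fin m → ℂ) → (Fin m → ℂ) → Λ (Fin m → ℂ)

variable {m X} [ChartedSpace (Fin m → ℂ) X]

/-- `u` is a smooth differential form on the complex manifold `X`. -/
def IsForm (u : Fm m X) : Prop :=
  ∀ e ∈ atlas (Fin m → ℂ) X, ∀ x ∈ e.source, Sm (u e) (e x) ∧
    ∀ e' ∈ atlas (Fin m → ℂ) X, x ∈ e'.source →
      u e (e x) = pb (fun z => e' (e.symm z)) (e x) (u e' (e' x))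

/-- `u` is the exterior derivative of a smooth form. -/
def Exact (u : Fm m X) : Prop :=
  ∃ v : Fm m X, IsForm v ∧ ∀ e ∈ atlas (Fin m → ℂ) X, ∀ x ∈ e.source, u e (e x) = d (v e) (e x)

/-- The integral of the top degree part of `u` over the compact manifold `X`: the common value of
the sums given by the finite partitions of unity subordinate to charts. -/
def intg (u : Fm m X) : ℂ :=
  Classical.epsilon fun I => ∀ (N : ℕ) (e : Fin N → OpenPartialHomeomorph X (Fin m → ℂ))
    (ρ : Fin N → X → ℝ), (∀ i, e i ∈ atlas (Fin m → ℂ) X ∧ Continuous (ρ i) ∧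
      tsupport (ρ i) ⊆ (e i).source) → (∀ x, ∑ i, ρ i x = 1) →
    ∑ i, ∫ z in (e i).target, (ρ i ((e i).symm z) : ℂ) * top m (u (e i) z) = I

end Vale.Agent.P269F
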